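import Crest.Agent.N255.Nv.Abs

/-!
# Row 255 (helper2): cochains on tuples, pull back by labels, contiguous labels
-/

set_option autoImplicit false
open Set Finsupp

noncomputable section

namespace Crest.Agent.N255.Nv

open Crest.Agent.N255.Tp

variable {k : Type} [CommRing k] {I J : Type} {A A' A'' : Type} [AddCommGroup A] [Module k A]
  [AddCommGroup A'] [Module k A'] [AddCommGroup A''] [Module k A''] {n m : ℕ}

variable (k) in
/-- coboundary of cochains on tuples -/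
def td : (Tu I n → A) →ₗ[k] (Tu I (n + 1) → A) where
  toFun ψ τ := ∑ i : Fin (n + 2), (-1 : k) ^ (i : ℕ) • ψ (tf τ i)
  map_add' φ ψ := by funext σ; simp [Finset.sum_add_distrib]
  map_smul' r φ := by funext σ; simp [Finset.smul_sum, smul_smul, mul_comm]

theorem td_apply (ψ : Tu I n → A) (τ : Tu I (n + 1)) :
    td k ψ τ = ∑ i : Fin (n + 2), (-1 : k) ^ (i : ℕ) • ψ (tf τ i) := rfl

theorem tu_ext {V : Type} [AddCommGroup V] [Module k V] {S T : (Tu I n →₀ k) →ₗ[k] V}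
    (h : ∀ τ, S (single τ 1) = T (single τ 1)) (c : Tu I n →₀ k) : S c = T c :=
  LinearMap.congr_fun (lhom_ext' fun τ => LinearMap.ext_ring (h τ)) c

theorem lc_tb (ψ : Tu I n → A) (c : Tu I (n + 1) →₀ k) :
    linearCombination k ψ (tb k n c) = linearCombination k (td k ψ) c :=
  tu_ext (S := linearCombination k ψ ∘ₗ tb k n) (fun τ => by simp [tb_single, td_apply]) c

theorem td_eq (ψ : Tu I n → A) (τ : Tu I (n + 1)) :
    td k ψ τ = linearCombination k ψ (tb k n (single τ 1)) := by rw [lc_tb]; simp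

theorem td_td (ψ : Tu I n → A) : td k (td k ψ) = 0 := by
  funext τ
  rw [td_eq, ← lc_tb, tb_tb, map_zero]; rfl

theorem td0 (ψ : Tu I 0 → A) (τ : Tu I 1) : td k ψ τ = ψ ![τ 1] - ψ ![τ 0] := by
  have h0 : tf τ 0 = ![τ 1] := by funext j; fin_cases j; rfl
  have h1 : tf τ 1 = ![τ 0] := by funext j; fin_cases j; rfl
  simp [td_apply, h0, h1, sub_eq_add_neg]

theorem td1 (ψ : Tu I 1 → A) (τ : Tu I 2) :
    td k ψ τ = ψ ![τ 1, τ 2] - ψ ![τ 0, τ 2] + ψ ![τ 0, τ 1] := by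
  have h0 : tf τ 0 = ![τ 1, τ 2] := by funext j; fin_cases j <;> rfl
  have h1 : tf τ 1 = ![τ 0, τ 2] := by funext j; fin_cases j <;> rfl
  have h2 : tf τ 2 = ![τ 0, τ 1] := by funext j; fin_cases j <;> rfl
  simp [td_apply, Fin.sum_univ_three, h0, h1, h2, sub_eq_add_neg]

theorem td2 (ψ : Tu I 2 → A) (τ : Tu I 3) :
    td k ψ τ = ψ ![τ 1, τ 2, τ 3] - ψ ![τ 0, τ 2, τ 3] + ψ ![τ 0, τ 1, τ 3] - ψ ![τ 0, τ 1, τ 2] := by
  have h0 : tf τ 0 = ![τ 1, τ 2, τ 3] := by funext j; fin_cases j <;> rfl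
  have h1 : tf τ 1 = ![τ 0, τ 2, τ 3] := by funext j; fin_cases j <;> rfl
  have h2 : tf τ 2 = ![τ 0, τ 1, τ 3] := by funext j; fin_cases j <;> rfl
  have h3 : tf τ 3 = ![τ 0, τ 1, τ 2] := by funext j; fin_cases j <;> rfl
  have e3 : (-1 : k) ^ 3 = -1 := by ring
  simp [td_apply, Fin.sum_univ_four, h0, h1, h2, h3, sub_eq_add_neg, e3]

theorem lc_zero {s : Set (Tu I n)} {ψ : Tu I n → A} (h : ∀ τ ∈ s, ψ τ = 0) {c : Tu I n →₀ k}
    (hc : c ∈ supported k k s) : linearCombination k ψ c = 0 :=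
  mem_of (F := linearCombination k ψ) (N := ⊥) (fun τ hτ => by simp [h τ hτ]) hc

variable (k) in
/-- change of labels -/
def tm (f : I → J) (n : ℕ) : (Tu I n →₀ k) →ₗ[k] (Tu J n →₀ k) := lmapDomain k k fun τ => f ∘ τ

theorem tm_single (f : I → J) (τ : Tu I n) : tm k f n (single τ 1) = single (f ∘ τ) 1 := by simp [tm]

theorem tb_tm (f : I → J) (c : Tu I (n + 1) →₀ k) :
    tb k n (tm k f (n + 1) c) = tm k f n (tb k n c) :=
  tu_ext (S := tb k n ∘ₗ tm k f (n + 1)) (T := tm k f n ∘ₗ tb k n) (fun τ => by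
    simp only [LinearMap.comp_apply, tm_single, tb_single, map_sum, map_smul]; rfl) c

theorem ta_tm (f : I → J) (c : Tu I 0 →₀ k) : ta k (tm k f 0 c) = ta k c :=
  tu_ext (S := ta k ∘ₗ tm k f 0) (fun τ => by
    simp only [LinearMap.comp_apply, tm_single, ta_single]) c

theorem lc_tm (f : I → J) (ψ : Tu J n → A) (c : Tu I n →₀ k) :
    linearCombination k ψ (tm k f n c) = linearCombination k (fun τ => ψ (f ∘ τ)) c :=
  tu_ext (S := linearCombination k ψ ∘ₗ tm k f n) (fun τ => by simp [tm_single]) c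

variable (k) in
/-- the prism between two maps of labels -/
def pz (f g : J → I) : ∀ n, (Tu J n →₀ k) →ₗ[k] (Tu I (n + 1) →₀ k)
  | 0 => linearCombination k fun τ => cn k (f (τ 0)) 0 (single (g ∘ τ) 1 - single (f ∘ τ) 1)
  | n + 1 => linearCombination k fun τ => cn k (f (τ 0)) (n + 1)
      (single (g ∘ τ) 1 - single (f ∘ τ) 1 - pz f g n (tb k n (single τ 1)))

variable (f g : J → I)





variable (k) in
/-- the prism on cochains -/
def pc (ψ : Tu I (n + 1) → A) : Tu J n → A :=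
  fun τ => linearCombination k ψ (pz k f g n (single τ 1))







section sing
variable {X Y : Type} [TopologicalSpace X] [TopologicalSpace Y]

/-- pull back by labels -/
def rs (l : X → I) (ψ : Tu I n → A) : Co A n X := fun σ => ψ (vl l σ)

omit [AddCommGroup A] in
theorem rs_apply (l : X → I) (ψ : Tu I n → A) (σ : Sx n X) : rs l ψ σ = ψ (vl l σ) := rfl







theorem vl_sub (l : X → I) (σ : Sx n X) (v : Fin (m + 1) → Fin (n + 1)) :
    vl l (sub σ v) = vl l σ ∘ v := by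
  funext j
  change l (σ (stdSimplex.map v (stdSimplex.vertex j))) = _
  rw [stdSimplex.map_vertex]; rfl





theorem cob_rs (l : X → I) (ψ : Tu I n → A) : cob k (rs l ψ) = rs l (td k ψ) := by
  funext σ
  simp only [cob_apply, rs, td_apply, vl_fc]

theorem ev_rs (l : X → I) (ψ : Tu I n → A) (c : Ch k n X) :
    ev k (rs l ψ) c = linearCombination k ψ (lb k l n c) :=
  ch_ext' (T := linearCombination k ψ ∘ₗ lb k l n) (fun σ => by simp [lb_sg, rs]) c


theorem rs_van {P : Sb X} {l : X → I} {s : Set (Tu I n)} (hl : ∀ σ ∈ P.S n, vl l σ ∈ s)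
    {ψ : Tu I n → A} (h : ∀ τ ∈ s, ψ τ = 0) : rs l ψ ∈ P.van k A n := fun σ hσ => h _ (hl σ hσ)

theorem rs_Z {P : Sb X} {l : X → I} {s : Set (Tu I (n + 1))} (hl : ∀ σ ∈ P.S (n + 1), vl l σ ∈ s)
    {ψ : Tu I n → A} (h : ∀ τ ∈ s, td k ψ τ = 0) : rs l ψ ∈ P.Z k A n := by
  rw [Sb.mem_Z, cob_rs]; exact rs_van hl h

variable (k) in
/-- the prism between two labellings -/
def ct (l l' : X → I) (ψ : Tu I (n + 1) → A) : Co A n X := rs id (pc k l l' ψ)





/-- clique tuples in `M` -/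
def CT (R : I → I → Prop) (M : Set I) (n : ℕ) : Set (Tu I n) := {τ | range τ ⊆ M ∧ Cq R (range τ)}

theorem CT.mono {R : I → I → Prop} {M M' : Set I} (h : M ⊆ M') : CT R M n ⊆ CT R M' n :=
  fun _ hτ => ⟨hτ.1.trans h, hτ.2⟩

theorem CT.of_sub {R : I → I → Prop} {M s : Set I} (h : s ⊆ M) (q : Cq R s) {ω : Tu I n}
    (hω : range ω ⊆ s) : ω ∈ CT R M n := ⟨hω.trans h, q.mono hω⟩

theorem CT.comp {R : I → I → Prop} {M : Set I} {τ : Tu I n} (h : τ ∈ CT R M n)
    (v : Fin (m + 1) → Fin (n + 1)) : τ ∘ v ∈ CT R M m :=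
  CT.of_sub h.1 h.2 (range_comp_subset_range _ _)

theorem CT.tf {R : I → I → Prop} {M : Set I} {τ : Tu I (n + 1)} (h : τ ∈ CT R M (n + 1))
    (i : Fin (n + 2)) : tf τ i ∈ CT R M n := CT.of_sub h.1 h.2 (range_tf τ i)


/-- the cup product on tuples -/
def tcup (μ : A →ₗ[k] A' →ₗ[k] A'') (n : ℕ) {i j : ℕ} (φ : Tu I i → A) (ψ : Tu I j → A') :
    Tu I n → A'' :=
  fun τ => μ (φ fun t => τ ⟨min t n, by omega⟩) (ψ fun t => τ ⟨min (t + (n - j)) n, by omega⟩)

theorem cup_rs (μ : A →ₗ[k] A' →ₗ[k] A'') (l : X → I) {i j : ℕ} (φ : Tu I i → A) (ψ : Tu I j → A') :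
    cup μ n (rs l φ) (rs l ψ) = rs l (tcup μ n φ ψ) := by
  funext σ
  simp only [cup, rs, fr, bk, vl_sub, tcup]; rfl

theorem tcup11 (μ : A →ₗ[k] A' →ₗ[k] A'') (φ : Tu I 1 → A) (ψ : Tu I 1 → A') (τ : Tu I 2) :
    tcup μ 2 φ ψ τ = μ (φ ![τ 0, τ 1]) (ψ ![τ 1, τ 2]) := by
  rw [tcup]
  congr 2
  · congr 1; funext t; fin_cases t <;> rfl
  · funext t; fin_cases t <;> rfl

end sing

end Crest.Agent.N255.Nv

end
private theorem rz_258a3d9aaa : type_of% @_root_.Crest.Agent.N255.Nv.pz.eq_def := @_root_.Crest.Agent.N255.Nv.pz.eq_def -- L90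
private theorem rz_7d6b6c6da7 : type_of% @_root_.Crest.Agent.N255.Nv.pz.eq_1 := @_root_.Crest.Agent.N255.Nv.pz.eq_1 -- L90
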